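import Mathlib

/-!
Definitions for P372: states, separability, purifications, key-distillation protocols
(local instruments in Kraus form with public classical communication) and the distillable key.
-/

namespace Vale.Agent.P372

open Matrix Filter Topology
open scoped ComplexOrder ENNReal

/-- A density operator: positive semidefinite with trace one. -/
def IsState {ι : Type} [Fintype ι] (ρ : Matrix ι ι ℂ) : Prop :=
  ρ.PosSemidef ∧ ρ.trace = 1

/-- A finite convex combination of product states. -/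
def IsSeparable {dA dB : ℕ} (ρ : Matrix (Fin dA × Fin dB) (Fin dA × Fin dB) ℂ) : Prop :=
  ∃ (k : ℕ) (p : Fin k → ℝ) (α : Fin k → Matrix (Fin dA) (Fin dA) ℂ)
    (β : Fin k → Matrix (Fin dB) (Fin dB) ℂ),
    (∀ i, 0 ≤ p i) ∧ ∑ i, p i = 1 ∧ (∀ i, IsState (α i)) ∧ (∀ i, IsState (β i)) ∧
      ρ = ∑ i, (p i : ℂ) • kroneckerMap (· * ·) (α i) (β i)

/-- The rank one operator of a vector. -/
def proj {ι : Type} (ψ : ι → ℂ) : Matrix ι ι ℂ :=
  Matrix.vecMulVec ψ (star ψ)

/-- Trace over the second tensor factor. -/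
def traceRight {ι E : Type} [Fintype E] (X : Matrix (ι × E) (ι × E) ℂ) : Matrix ι ι ℂ :=
  Matrix.of fun x y => ∑ e, X (x, e) (y, e)

/-- Trace over the first tensor factor. -/
def traceLeft {ι E : Type} [Fintype ι] (X : Matrix (ι × E) (ι × E) ℂ) : Matrix E E ℂ :=
  Matrix.of fun e f => ∑ x, X (x, e) (x, f)

/-- `ψ` is a purification of `ρ`, the third system being held by Eve. -/
def IsPurification {dA dB dE : ℕ} (ψ : (Fin dA × Fin dB) × Fin dE → ℂ)
    (ρ : Matrix (Fin dA × Fin dB) (Fin dA × Fin dB) ℂ) : Prop :=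
  traceRight (proj ψ) = ρ

/-- The `n`-fold tensor power of `ψ`, with the systems grouped as `(A^n, B^n), E^n`. -/
def tensorPow {dA dB dE : ℕ} (ψ : (Fin dA × Fin dB) × Fin dE → ℂ) (n : ℕ) :
    (Fin (dA ^ n) × Fin (dB ^ n)) × (Fin n → Fin dE) → ℂ :=
  fun x => ∏ i, ψ ((finFunctionFinEquiv.symm x.1.1 i, finFunctionFinEquiv.symm x.1.2 i), x.2 i)

/-- Key values: bit strings of length `ℓ`. -/
abbrev Key (ℓ : ℕ) : Type := Fin ℓ → Bool

/-- Finite-round key-distillation protocols with key length `ℓ`, when Alice currently holds a system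
of dimension `a` and Bob one of dimension `b`. At an inner node one party applies a quantum instrument
(outcomes `m`, Kraus operators `K m j`, output dimension `d m`), announces `m` publicly, and the
protocol goes on with `next m`. At a leaf both parties measure their key registers. -/
inductive Protocol (ℓ : ℕ) : ℕ → ℕ → Type
  | stop {a b : ℕ} (M : Key ℓ → Matrix (Fin a) (Fin a) ℂ) (N : Key ℓ → Matrix (Fin b) (Fin b) ℂ)
      (hM : ∀ x, (M x).PosSemidef) (hM1 : ∑ x, M x = 1)
      (hN : ∀ y, (N y).PosSemidef) (hN1 : ∑ y, N y = 1) : Protocol ℓ a b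
  | alice {a b : ℕ} (k r : ℕ) (d : Fin k → ℕ)
      (K : (m : Fin k) → Fin r → Matrix (Fin (d m)) (Fin a) ℂ)
      (hK : ∑ m, ∑ j, conjTranspose (K m j) * K m j = 1)
      (next : (m : Fin k) → Protocol ℓ (d m) b) : Protocol ℓ a b
  | bob {a b : ℕ} (k r : ℕ) (d : Fin k → ℕ)
      (K : (m : Fin k) → Fin r → Matrix (Fin (d m)) (Fin b) ℂ)
      (hK : ∑ m, ∑ j, conjTranspose (K m j) * K m j = 1)
      (next : (m : Fin k) → Protocol ℓ a (d m)) : Protocol ℓ a b

/-- The complete public transcripts of a protocol. -/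
def Protocol.Transcript {ℓ : ℕ} : {a b : ℕ} → Protocol ℓ a b → Type
  | _, _, .stop _ _ _ _ _ _ => Unit
  | _, _, .alice k _ _ _ _ next => (m : Fin k) × (next m).Transcript
  | _, _, .bob k _ _ _ _ next => (m : Fin k) × (next m).Transcript

theorem Protocol.finite_transcript {ℓ a b : ℕ} (P : Protocol ℓ a b) : Finite P.Transcript := by
  induction P with
  | stop => exact inferInstanceAs (Finite Unit)
  | alice k r d K hK next ih => exact inferInstanceAs (Finite ((m : Fin k) × (next m).Transcript))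
  | bob k r d K hK next ih => exact inferInstanceAs (Finite ((m : Fin k) × (next m).Transcript))

noncomputable instance Protocol.fintypeTranscript {ℓ a b : ℕ} (P : Protocol ℓ a b) :
    Fintype P.Transcript :=
  @Fintype.ofFinite _ P.finite_transcript

noncomputable instance Protocol.decEqTranscript {ℓ a b : ℕ} (P : Protocol ℓ a b) :
    DecidableEq P.Transcript :=
  Classical.decEq _

/-- Running the protocol on the joint state `ω` of Alice, Bob and Eve: the unnormalised state of
Eve's quantum system on the event that the transcript is `t`, Alice's key is `x`, Bob's key is `y`. -/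
noncomputable def Protocol.eve {ℓ : ℕ} {E : Type} [Fintype E] [DecidableEq E] :
    {a b : ℕ} → (P : Protocol ℓ a b) →
      Matrix ((Fin a × Fin b) × E) ((Fin a × Fin b) × E) ℂ →
      P.Transcript → Key ℓ → Key ℓ → Matrix E E ℂ
  | _, _, .stop M N _ _ _ _, ω, _, x, y =>
      traceLeft
        (kroneckerMap (· * ·) (kroneckerMap (· * ·) (M x) (N y)) (1 : Matrix E E ℂ) * ω)
  | _, b, .alice _ _ _ K _ next, ω, t, x, y =>
      (next t.1).eve
        (∑ j, kroneckerMap (· * ·) (kroneckerMap (· * ·) (K t.1 j) (1 : Matrix (Fin b) (Fin b) ℂ))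
            (1 : Matrix E E ℂ) * ω *
          conjTranspose (kroneckerMap (· * ·)
            (kroneckerMap (· * ·) (K t.1 j) (1 : Matrix (Fin b) (Fin b) ℂ)) (1 : Matrix E E ℂ)))
        t.2 x y
  | a, _, .bob _ _ _ K _ next, ω, t, x, y =>
      (next t.1).eve
        (∑ j, kroneckerMap (· * ·) (kroneckerMap (· * ·) (1 : Matrix (Fin a) (Fin a) ℂ) (K t.1 j))
            (1 : Matrix E E ℂ) * ω *
          conjTranspose (kroneckerMap (· * ·)
            (kroneckerMap (· * ·) (1 : Matrix (Fin a) (Fin a) ℂ) (K t.1 j)) (1 : Matrix E E ℂ)))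
        t.2 x y

/-- The final state on `K_A K_B E'`, where `E'` is the transcript together with Eve's system. -/
noncomputable def Protocol.finalState {ℓ a b : ℕ} {E : Type} [Fintype E] [DecidableEq E]
    (P : Protocol ℓ a b) (ω : Matrix ((Fin a × Fin b) × E) ((Fin a × Fin b) × E) ℂ) :
    Matrix ((Key ℓ × Key ℓ) × (P.Transcript × E)) ((Key ℓ × Key ℓ) × (P.Transcript × E)) ℂ :=
  ∑ x, ∑ y, ∑ t, kroneckerMap (· * ·) (Matrix.single (x, y) (x, y) (1 : ℂ))
    (kroneckerMap (· * ·) (Matrix.single t t (1 : ℂ)) (P.eve ω t x y))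

/-- The ideal key state `2^{-ℓ} ∑_z |z,z⟩⟨z,z| ⊗ σ`. -/
noncomputable def idealState (ℓ : ℕ) {F : Type} (σ : Matrix F F ℂ) :
    Matrix ((Key ℓ × Key ℓ) × F) ((Key ℓ × Key ℓ) × F) ℂ :=
  ((2 : ℂ) ^ ℓ)⁻¹ • ∑ z : Key ℓ, kroneckerMap (· * ·) (Matrix.single (z, z) (z, z) (1 : ℂ)) σ

/-- The trace norm `tr √(X^* X)`; the square root is taken by the functional calculus of the
Hermitian matrix `X^* X`. -/
noncomputable def traceNorm {ι : Type} [Fintype ι] [DecidableEq ι] (X : Matrix ι ι ℂ) : ℝ :=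
  (cfc Real.sqrt (conjTranspose X * X)).trace.re

/-- The protocol has error `ε` on the input state `ω`. -/
def Protocol.HasError {ℓ a b : ℕ} {E : Type} [Fintype E] [DecidableEq E]
    (P : Protocol ℓ a b) (ω : Matrix ((Fin a × Fin b) × E) ((Fin a × Fin b) × E) ℂ) (ε : ℝ) :
    Prop :=
  ∃ σ : Matrix (P.Transcript × E) (P.Transcript × E) ℂ,
    IsState σ ∧ traceNorm (P.finalState ω - idealState ℓ σ) ≤ ε

/-- The distillable secret key when Eve holds the purification `ψ`: the supremum of
`liminf ℓ_n / n` over sequences of protocols on `n` copies whose errors tend to zero. -/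
noncomputable def distillableKey {dA dB dE : ℕ} (ψ : (Fin dA × Fin dB) × Fin dE → ℂ) : ℝ≥0∞ :=
  ⨆ (ℓ : ℕ → ℕ) (P : ∀ n, Protocol (ℓ n) (dA ^ n) (dB ^ n)) (ε : ℕ → ℝ)
    (_ : ∀ n, (P n).HasError (proj (tensorPow ψ n)) (ε n)) (_ : Tendsto ε atTop (𝓝 0)),
    liminf (fun n : ℕ => (ℓ n : ℝ≥0∞) / (n : ℝ≥0∞)) atTop

end Vale.Agent.P372
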